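import Vale.Agent.P088.R2.H271.F.Rr
import Vale.Agent.P088.R2.H303.F.Spec

/-!
# P088, stage 3, leaf iF: the row of the distance `r`
-/

open Set Filter
open scoped ContDiff Topology Matrix

noncomputable section

namespace Vale.Agent.P088.R2.H271.F

open Vale.Agent.P088.LR Vale.Agent.P088.HY Vale.Agent.P088.R2.H475
open Vale.Agent.P088.R2.H31.EP Vale.Agent.P088.R2.H404.INF Vale.Agent.P088.R2.H269.INF
open Vale.Agent.P088.R2.H644.Ch Vale.Agent.P088.R2.H747.SW Vale.Agent.P088.R2.H230.W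
open Vale.Agent.P088.R2.H768.FarJ Vale.Agent.P088.R2.H303.F Vale.Agent.P088.R2.H657.W
open Vale.Agent.P088.R2.H464.Cu

variable {n : ℕ}

/-- Small numbers. -/
theorem ev_small {c a : ℝ} (ha : 0 < a) : ∀ᶠ t in sml, c * t ≤ a := by
  filter_upwards [sml_pos, sml_le (a := a / (|c| + 1)) (by positivity)] with t h0 h1
  have h2 : c * t ≤ |c| * t := mul_le_mul_of_nonneg_right (le_abs_self c) h0.le
  have h3 : (|c| + 1) * t ≤ a := by
    rw [le_div_iff₀ (by positivity)] at h1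
    linarith
  linarith

/-- **The data of the far region for suitably chosen constants.** -/
theorem ev_Fk (hn : 1 ≤ n) {ℓ : ℝ} (hℓ : ℓ ≤ 5) : EvC fun q => ∀ d : Pk n, PkOk q d →
    Fk n ℓ q.κ₁ q.σ q.e₁ q d := by
  have h1 : EvC fun q => q.κ₁ ≤ 1 := EvC.at_κ₁ (fun _ t => t ≤ 1) fun _ => sml_le one_pos
  have h2 : EvC fun q => q.σ ≤ 1 / 5000 :=
    EvC.at_σ (fun _ t => t ≤ 1 / 5000) fun _ => sml_le (by norm_num)
  have h3 : EvC fun q => q.c' ≤ 1 := EvC.at_c' (fun _ t => t ≤ 1) fun _ => sml_le one_pos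
  have h4 : EvC fun q => q.es ≤ 1 := EvC.at_es (fun _ t => t ≤ 1) fun _ => sml_le one_pos
  have h5 : EvC fun q => 1 ≤ q.M₀ := EvC.at_M₀ (fun _ t => 1 ≤ t) fun _ => eventually_ge_atTop 1
  have h6 : EvC fun q => q.ε ≤ 1 ∧ n * q.ε ≤ 1 / 2 ∧ n * (cG n 12 * q.ε) ≤ 1 / 2 := by
    refine EvC.at_ε (fun _ t => t ≤ 1 ∧ n * t ≤ 1 / 2 ∧ n * (cG n 12 * t) ≤ 1 / 2)
      fun _ => ?_
    filter_upwards [sml_le (a := 1) one_pos, ev_small (c := (n : ℝ)) (a := 1 / 2) (by norm_num),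
      ev_small (c := n * cG n 12) (a := 1 / 2) (by norm_num)] with t a1 a2 a3
    exact ⟨a1, a2, by linarith⟩
  have h7 : EvC fun q => 0 < q.κ₁ → 1 ≤ q.R ∧ 160 ≤ q.κ₁ * q.R := by
    refine EvC.at_R (fun q t => 0 < q.κ₁ → 1 ≤ t ∧ 160 ≤ q.κ₁ * t) fun q => ?_
    by_cases hq : 0 < q.κ₁
    · filter_upwards [eventually_ge_atTop 1,
        (tendsto_id.const_mul_atTop hq).eventually_ge_atTop 160] with t a1 a2 _
      exact ⟨a1, a2⟩
    · exact Eventually.of_forall fun _ a => absurd a hq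
  refine ((((EvC.pos.and h1).and (h2.and h3)).and ((h4.and h5).and (h6.and h7)))).mono ?_
  rintro q ⟨⟨⟨⟨⟨-, b2, -⟩, ⟨c1, c2, c3, c4, -, -, -⟩, m1, -, m3, -, m5, m6⟩, k1⟩, k2, k3⟩,
    ⟨k4, k5⟩, ⟨k6, k7, k8⟩, k9⟩ d hd
  obtain ⟨z1, z2⟩ := k9 c1
  exact ⟨hn, hℓ, c1, k1, c2, k2, b2, rfl, rfl, hd, k5, c4.le, k4, c3.le, k3, z1, z2, m3.le, k6,
    k7, k8⟩

/-- Row R on the levels below `l₀ + ℓ R`. -/
def RowRl (n : ℕ) (ℓ : ℝ) : Prop := ∃ C : ℝ, 0 ≤ C ∧ ∀ e : ℝ, 0 < e →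
  EvC fun q => ∀ d : Pk n, PkOk q d → ∀ z ∈ UL ℓ q.κ₁ q d, ∀ A B : Fin n → ℝ,
    |TH d.sx d.sy (jr d) z A B| ≤ C / (q.κ₁ * q.R) * (ss d.sx A z + ss d.sy B z) ∧
    -(e * (q.σ / q.R) * (ss d.sx A z + ss d.sy B z)) ≤ TH d.sx d.sy (jr d) z A B ∧
    GA d.sx d.sy (jr d) z A B ^ 2 ≤ C * (ss d.sx A z + ss d.sy B z)

/-- **Row R on the larger sets.** -/
theorem rowR' {ℓ : ℝ} (hℓ : ℓ ≤ 5) : RowRl n ℓ := by
  refine ⟨cR n, by unfold cR; positivity, fun e he => ?_⟩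
  rcases Nat.eq_zero_or_pos n with hn | hn
  · subst hn
    refine EvC.of fun q d _ z hz => ?_
    exfalso
    have h := hz.2.2
    have h0 : HY.sq (z.1 - z.2) = 0 := by
      unfold HY.sq
      simp
    rw [h0] at h
    exact absurd h (not_lt.2 (sq_nonneg _))
  have g0 : 0 < cR n := by unfold cR; positivity
  have c0 := cG_nn n 12
  have h1 : EvC fun q => 0 < q.σ → (n : ℝ) * ((1 + cG n 12) * q.ε) ≤ 1 / 2 ∧
      (1 + cG n 12) * q.ε ≤ 1 ∧ 6 / q.σ * ((1 + cG n 12) * q.ε) ≤ 1 ∧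
      cR n * (6 / q.σ * ((1 + cG n 12) * q.ε)) ≤ e * q.σ := by
    refine EvC.at_ε (fun q t => 0 < q.σ → (n : ℝ) * ((1 + cG n 12) * t) ≤ 1 / 2 ∧
      (1 + cG n 12) * t ≤ 1 ∧ 6 / q.σ * ((1 + cG n 12) * t) ≤ 1 ∧
      cR n * (6 / q.σ * ((1 + cG n 12) * t)) ≤ e * q.σ) fun q => ?_
    by_cases hq : 0 < q.σ
    · filter_upwards [ev_small (c := (n : ℝ) * (1 + cG n 12)) (a := 1 / 2) (by norm_num),
        ev_small (c := (1 + cG n 12)) (a := 1) one_pos,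
        ev_small (c := 6 / q.σ * (1 + cG n 12)) (a := 1) one_pos,
        ev_small (c := cR n * (6 / q.σ * (1 + cG n 12))) (a := e * q.σ) (by positivity)] with
        t a1 a2 a3 a4 _
      exact ⟨by linarith, a2, by linarith, by linarith⟩
    · exact Eventually.of_forall fun _ a => absurd a hq
  refine ((ev_Fk hn hℓ).and h1).mono fun q hq d hd z hz A B => ?_
  have F := hq.1 d hd
  obtain ⟨k1, k2, k3, k4⟩ := hq.2 F.σ0
  have hR0 := F.R0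
  have e0 := F.ε0
  have i0 : 0 ≤ q.R⁻¹ := inv_nonneg.2 hR0.le
  have l1 : q.ε ≤ (1 + cG n 12) * q.ε := by
    have := mul_nonneg c0 e0
    linarith
  have l2 : cG n 12 * q.ε ≤ (1 + cG n 12) * q.ε := by linarith
  have up : ∀ {t : ℝ} {s : MF n}, t ≤ (1 + cG n 12) * q.ε → Nr univ t (t * q.R⁻¹) (t * q.R⁻¹ ^ 2) s →
      Nr univ ((1 + cG n 12) * q.ε) ((1 + cG n 12) * q.ε * q.R⁻¹)
        ((1 + cG n 12) * q.ε * q.R⁻¹ ^ 2) s := fun ht h =>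
    nr_mono h ht (mul_le_mul_of_nonneg_right ht i0)
      (mul_le_mul_of_nonneg_right ht (pow_nonneg i0 2))
  have n1 := up l1 (F.tr.nr (by norm_num) univ)
  have n2 := up l1 (F.tr'.nr (by norm_num) univ)
  have ng := up l2 ((F.tr.inv hR0 F.ε1 F.ε2).nr (by norm_num) univ)
  have hr1 : q.κ₁ * q.R / 8 ≤ √(2 * rq (gi d.s₁) z) := by
    rw [Real.le_sqrt' (by have := F.κ0; positivity)]
    exact (F.r2_ge hz).le
  have hr2 : √(2 * rq (gi d.s₁) z) ≤ 6 / q.σ * q.R := F.r_le hz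
  have hΛ : 1 ≤ 6 / q.σ := by
    rw [le_div_iff₀ F.σ0]
    linarith [F.σ1]
  have key := rr_pt n1 n2 ng (by positivity) k2 k1 F.R1 hΛ k3 F.κ0 F.κ1 hr1 hr2 A B
  obtain ⟨r1, r2', r3⟩ := key
  have Y0 : 0 ≤ bf (d.s₁ z.1) A A + bf (d.s₂ z.2) B B := by
    have a1 := nm_ss k1 (n1.b0 z.1 (mem_univ _)) A
    have a2 := nm_ss k1 (n2.b0 z.2 (mem_univ _)) B
    have a3 := sq_nonneg ‖A‖
    have a4 := sq_nonneg ‖B‖
    linarith
  refine ⟨r1, le_trans (neg_le_neg ?_) r2', r3⟩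
  show cR n * (6 / q.σ * ((1 + cG n 12) * q.ε) / q.R) * (bf (d.s₁ z.1) A A + bf (d.s₂ z.2) B B) ≤
    e * (q.σ / q.R) * (bf (d.s₁ z.1) A A + bf (d.s₂ z.2) B B)
  refine mul_le_mul_of_nonneg_right ?_ Y0
  calc cR n * (6 / q.σ * ((1 + cG n 12) * q.ε) / q.R) =
      cR n * (6 / q.σ * ((1 + cG n 12) * q.ε)) / q.R := by ring
    _ ≤ e * q.σ / q.R := div_le_div_of_nonneg_right k4 hR0.le
    _ = e * (q.σ / q.R) := by ring

/-- **Row R.** -/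
theorem rowR : RowR n := rowR' (by norm_num)

end Vale.Agent.P088.R2.H271.F
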